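import Mathlib

/-!
# P277, abstract linear algebra: codimension counts, rational points of rational subspaces
-/

namespace P277Z.O1

open Module

/-- A family of functionals: its rank on the span of `L` is witnessed by points of `L`. -/
theorem codim_le {R X : Type*} [AddCommGroup R] [Module ℝ R] [FiniteDimensional ℝ R]
    [AddCommGroup X] [Module ℝ X] (L : Set X) (ψ : R →ₗ[ℝ] X →ₗ[ℝ] ℝ) (u : ℕ)
    (hu : ∀ (s : ℕ) (x : Fin s → X), (∀ j, x j ∈ L) →
      (∀ μ : Fin s → ℝ, (∀ r, ψ r (∑ j, μ j • x j) = 0) → μ = 0) → s ≤ u) :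
    ∃ M : Submodule ℝ R, finrank ℝ R ≤ u + finrank ℝ M ∧
      ∀ r ∈ M, ∀ x ∈ Submodule.span ℝ L, ψ r x = 0 := by
  classical
  let φ : X →ₗ[ℝ] Dual ℝ R := ψ.flip
  obtain ⟨b, hbL, hsp, hli⟩ := exists_linearIndependent ℝ (φ '' L)
  have hfin : b.Finite := hli.set_finite_of_isNoetherian
  let : Fintype b := hfin.fintype
  have hcard : Fintype.card b ≤ u := by
    choose y hyL hy using fun v : b => hbL v.2
    let e := (Fintype.equivFin b).symm
    refine hu _ (fun j => y (e j)) (fun j => hyL _) fun μ hμ => ?_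
    have h1 : LinearIndependent ℝ fun j => ((e j : b) : Dual ℝ R) := hli.comp e e.injective
    have h2 := Fintype.linearIndependent_iff.1 h1 μ (by
      ext r
      have := hμ r
      simp only [map_sum, map_smul, smul_eq_mul] at this
      simp only [LinearMap.sum_apply, LinearMap.smul_apply, smul_eq_mul, LinearMap.zero_apply]
      rw [← this]
      refine Finset.sum_congr rfl fun j _ => ?_
      rw [← hy (e j)]; rfl)
    exact funext h2
  have h1 : finrank ℝ (Submodule.span ℝ b) = Fintype.card b := by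
    rw [← finrank_span_eq_card hli, Subtype.range_coe]
  have h3 := Subspace.finrank_add_finrank_dualCoannihilator_eq (Submodule.span ℝ b)
  refine ⟨(Submodule.span ℝ b).dualCoannihilator, by omega, fun r hr x hx => ?_⟩
  rw [Submodule.mem_dualCoannihilator, hsp, ← Submodule.map_span] at hr
  exact hr _ ⟨x, hx, rfl⟩

theorem codim_iInf {R ι : Type*} [AddCommGroup R] [Module ℝ R] [FiniteDimensional ℝ R]
    (s : Finset ι) (M : ι → Submodule ℝ R) (u : ι → ℕ)
    (h : ∀ i ∈ s, finrank ℝ R ≤ u i + finrank ℝ (M i)) :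
    finrank ℝ R ≤ ∑ i ∈ s, u i + finrank ℝ (⨅ i ∈ s, M i : Submodule ℝ R) := by
  classical
  induction s using Finset.induction_on with
  | empty =>
    have : (⨅ i ∈ (∅ : Finset ι), M i : Submodule ℝ R) = ⊤ := by simp
    rw [this]; simp
  | insert a s ha ih =>
    have h1 := ih fun i hi => h i (Finset.mem_insert_of_mem hi)
    have h2 := h a (Finset.mem_insert_self a s)
    rw [Finset.sum_insert ha, Finset.iInf_insert]
    have h3 := Submodule.finrank_sup_add_finrank_inf_eq (M a) (⨅ i ∈ s, M i)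
    have h4 := Submodule.finrank_le (M a ⊔ ⨅ i ∈ s, M i)
    omega

/-- A subspace given by rational equations is spanned by its lattice points. -/
theorem mem_span_rat {V E : Type*} [AddCommGroup V] [Module ℝ V] (Λ : AddSubgroup V)
    (ℓ : E → V →ₗ[ℝ] ℝ) (κ : E → ℝ) (hκ : ∀ e, ∀ y ∈ Λ, ∃ q : ℚ, ℓ e y = q * κ e) {x : V}
    (hx : x ∈ Submodule.span ℝ (Λ : Set V)) (h0 : ∀ e, ℓ e x = 0) :
    x ∈ Submodule.span ℝ {y | y ∈ Λ ∧ ∀ e, ℓ e y = 0} := by
  classical
  obtain ⟨n, c, v, rfl⟩ := Submodule.mem_span_set'.1 hx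
  let θ := Basis.ofVectorSpace ℚ ℝ
  let J := Finset.univ.biUnion fun i => (θ.repr (c i)).support
  have hc : ∀ i, c i = ∑ j ∈ J, (θ.repr (c i) j : ℝ) * θ j := by
    intro i
    conv_lhs => rw [← θ.linearCombination_repr (c i), Finsupp.linearCombination_apply,
      Finsupp.sum_of_support_subset _ (s := J)
        (Finset.subset_biUnion_of_mem (fun i => (θ.repr (c i)).support) (Finset.mem_univ i))
        (fun j a => a • θ j) (fun _ _ => zero_smul _ _)]
    exact Finset.sum_congr rfl fun j _ => Rat.smul_def _ _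
  have hs : ∑ i, c i • (v i : V) = ∑ j ∈ J, θ j • ∑ i, (θ.repr (c i) j : ℝ) • (v i : V) := by
    simp only [Finset.smul_sum, smul_smul]
    rw [Finset.sum_comm]
    refine Finset.sum_congr rfl fun i _ => ?_
    rw [← Finset.sum_smul]
    congr 1
    exact (hc i).trans (Finset.sum_congr rfl fun j _ => mul_comm _ _)
  rw [hs]
  refine Submodule.sum_mem _ fun j _ => Submodule.smul_mem _ _ ?_
  obtain ⟨N, hN⟩ := IsLocalization.exist_integer_multiples_of_finite (nonZeroDivisors ℤ)
    (fun i => θ.repr (c i) j)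
  have hN0 : ((N : ℤ) : ℝ) ≠ 0 := by exact_mod_cast nonZeroDivisors.ne_zero N.2
  choose z hz using hN
  have hz' : ∀ i, (z i : ℝ) = ((N : ℤ) : ℝ) * (θ.repr (c i) j : ℝ) := fun i => by
    have h1 : ((z i : ℤ) : ℚ) = ((N : ℤ) : ℚ) * θ.repr (c i) j := by
      simpa [zsmul_eq_mul] using hz i
    exact_mod_cast h1
  have h1 : ∑ i, (θ.repr (c i) j : ℝ) • (v i : V) = ((N : ℤ) : ℝ)⁻¹ • ∑ i, z i • (v i : V) := by
    rw [Finset.smul_sum]
    refine Finset.sum_congr rfl fun i _ => ?_
    rw [← Int.cast_smul_eq_zsmul ℝ, smul_smul, hz', inv_mul_cancel_left₀ hN0]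
  rw [h1]
  refine Submodule.smul_mem _ _ (Submodule.subset_span
    ⟨sum_mem fun i _ => zsmul_mem (v i).2 _, fun e => ?_⟩)
  choose m hm using fun i => hκ e _ (v i).2
  by_cases hk : κ e = 0
  · simp only [map_sum, map_zsmul, hm, hk, mul_zero, smul_zero, Finset.sum_const_zero]
  have h2 : ∑ i, m i • c i = 0 := by
    have h3 := h0 e
    simp only [map_sum, map_smul, hm, smul_eq_mul] at h3
    have h4 : (∑ i, m i • c i) * κ e = 0 := by
      rw [← h3, Finset.sum_mul]
      exact Finset.sum_congr rfl fun i _ => by rw [Rat.smul_def]; ring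
    exact (mul_eq_zero.1 h4).resolve_right hk
  have h3 : ∑ i, m i * θ.repr (c i) j = 0 := by
    have := congrArg (fun x => θ.repr x j) h2
    simpa using this
  have h4 : ∑ i, (m i : ℝ) * (θ.repr (c i) j : ℝ) = 0 := by exact_mod_cast h3
  simp only [map_sum, map_zsmul, hm, zsmul_eq_mul, hz']
  calc _ = ((N : ℤ) : ℝ) * κ e * ∑ i, (m i : ℝ) * (θ.repr (c i) j : ℝ) := by
        rw [Finset.mul_sum]; exact Finset.sum_congr rfl fun i _ => by ring
    _ = 0 := by rw [h4, mul_zero]

/-- A linear relation which is everywhere defined on `R` and has trivial kernel bounds the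
dimension (use in 5a: `r ↦ S`, the choices made are irrelevant). -/
theorem finrank_le_of_rel {R H : Type*} [AddCommGroup R] [Module ℝ R] [AddCommGroup H]
    [Module ℝ H] [FiniteDimensional ℝ H] (Γ : Submodule ℝ (R × H)) (R0 : Submodule ℝ R)
    (hs : ∀ r ∈ R0, ∃ S, (r, S) ∈ Γ) (hi : ∀ r, (r, (0 : H)) ∈ Γ → r = 0) :
    finrank ℝ R0 ≤ finrank ℝ H := by
  have h1 : Function.Injective ((LinearMap.snd ℝ R H).comp Γ.subtype) := by
    rw [injective_iff_map_eq_zero]
    rintro ⟨⟨r, S⟩, hm⟩ h0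
    have h0' : S = 0 := h0
    subst h0'
    exact Subtype.ext (Prod.ext (hi r hm) rfl)
  have : FiniteDimensional ℝ Γ := FiniteDimensional.of_injective _ h1
  have h2 := LinearMap.finrank_le_finrank_of_injective h1
  have h3 : R0 ≤ LinearMap.range ((LinearMap.fst ℝ R H).comp Γ.subtype) := by
    intro r hr
    obtain ⟨S, hS⟩ := hs r hr
    exact ⟨⟨(r, S), hS⟩, rfl⟩
  exact (Submodule.finrank_mono h3).trans ((LinearMap.finrank_range_le _).trans h2)

end P277Z.O1
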