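import Vale.Agent.P277Z.O1.O1
import Vale.Agent.P277Z.O1.Lin

/-!
# P277, sections 5b, 5c and the linear algebra of section 6 (notes/P277_proof.md), abstract form

`count`: for a linear family `r ↦ a r` of divisor classes on the `E_k` with the Gysin equations, the
subspace of the `r` with `a r ∈ γ(ℝ^Ed) + exact` has codimension at most `∑_S u S`, where `u S`
bounds the number of integral classes over the centre `S` with equal degrees on the horizontal
double surfaces which are independent modulo the `E_m` (`Cls`, the class group step).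
-/

namespace P277Z.O1

open Finset Module

variable {K Ed : Type*} [Fintype K] [Fintype Ed] [DecidableEq K] {V : K → Type*} {U : Ed → Type*}
  [∀ k, AddCommGroup (V k)] [∀ k, Module ℝ (V k)] [∀ e, AddCommGroup (U e)] [∀ e, Module ℝ (U e)]

namespace Cfg

variable (C : Cfg K Ed V U)

/-- the restrictions of `E_j` to the `E_k` -/
noncomputable def Em (j : K) : ∀ k, V k :=
  Pi.single j (C.n j) + ∑ e, ((if C.s e = j then Pi.single (C.t e) (C.ct e) else 0) +
    (if C.t e = j then Pi.single (C.s e) (C.cs e) else 0))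

/-- `γ(ℝ^Ed) + exact` -/
noncomputable def Z : Submodule ℝ (∀ k, V k) := LinearMap.range C.gam ⊔ Submodule.pi Set.univ C.N

/-- the class group bound over the set `S` of components -/
def Cls (Λ : ∀ k, AddSubgroup (V k)) (S : Set K) (u : ℕ) : Prop :=
  ∀ (s : ℕ) (x : Fin s → ∀ k, V k), (∀ j k, x j k ∈ Λ k) → (∀ j, ∀ k ∉ S, x j k = 0) →
    (∀ j e, ¬ C.P e → C.B e (C.rs e (x j _)) (C.rs e (C.o _)) =
      C.B e (C.rt e (x j _)) (C.rs e (C.o _))) →
    (∀ μ : Fin s → ℝ, (∃ m : K → ℝ, ∀ k ∈ S, ∀ y ∈ C.D k,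
      C.T k y (C.o k) ((∑ j, μ j • x j - ∑ i, m i • C.Em i) k) = 0) → μ = 0) → s ≤ u

/-- `β(y,x) = ∑ y_k x_k p^*ω` -/
noncomputable def be : (∀ k, V k) →ₗ[ℝ] (∀ k, V k) →ₗ[ℝ] ℝ :=
  ∑ k, ((C.T k).flip (C.o k)).compl₁₂ (LinearMap.proj k) (LinearMap.proj k)

variable {C}

omit [Fintype Ed] [DecidableEq K] in
theorem be_apply (y x : ∀ k, V k) : C.be y x = ∑ k, C.T k (y k) (C.o k) (x k) := by
  simp [be, LinearMap.sum_apply]

omit [Fintype K] in
theorem mem_Z {a : ∀ k, V k} : a ∈ C.Z ↔ ∃ r, ∀ k, a k - C.gam r k ∈ C.N k := by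
  rw [Z, Submodule.mem_sup]
  constructor
  · rintro ⟨_, ⟨r, rfl⟩, z, hz, rfl⟩
    exact ⟨r, fun k => by simpa using hz k trivial⟩
  · rintro ⟨r, hr⟩
    exact ⟨_, ⟨r, rfl⟩, a - C.gam r, fun k _ => hr k, by abel⟩

theorem be_g1 (h : C.Good) (e : Ed) (x : ∀ k, V k) : C.be (C.g1 e) x =
    C.B e (C.rs e (x _)) (C.rs e (C.o _)) - C.B e (C.rt e (x _)) (C.rs e (C.o _)) := by
  let F : ∀ k, V k →ₗ[ℝ] ℝ := fun k => ((C.T k).flip (C.o k)).flip (x k)
  rw [be_apply, show ∑ k, C.T k (C.g1 e k) (C.o k) (x k) = ∑ k, F k (C.g1 e k) from rfl]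
  simp only [g1, Pi.sub_apply, map_sub, Finset.sum_sub_distrib]
  rw [sum_single F, sum_single F]
  show C.T _ (C.cs e) (C.o _) (x _) - C.T _ (C.ct e) (C.o _) (x _) = _
  rw [h.ps, h.pt, ← h.oc, h.Bs, h.Bs e _ (C.rt e _)]

/-- `a · E_j · p^*ω = 0`, over a set of components closed under horizontal edges -/
theorem be_Em (h : C.Good) {a : ∀ k, V k} (ha : C.Gys a) (S : Finset K)
    (hS : ∀ e, ¬ C.P e → (C.s e ∈ S ↔ C.t e ∈ S)) (j : K) :
    ∑ k ∈ S, C.T k (a k) (C.o k) (C.Em j k) = 0 := by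
  classical
  let F : ∀ k, V k →ₗ[ℝ] ℝ := fun k => if k ∈ S then C.T k (a k) (C.o k) else 0
  have h1 : ∑ k ∈ S, C.T k (a k) (C.o k) (C.Em j k) = ∑ k, F k (C.Em j k) := by
    rw [← Finset.sum_filter_add_sum_filter_not Finset.univ (· ∈ S) fun k => F k (C.Em j k)]
    rw [Finset.sum_eq_zero (s := Finset.univ.filter (¬ · ∈ S)) fun k hk => by
      simp only [F, if_neg (Finset.mem_filter.1 hk).2, LinearMap.zero_apply], add_zero]
    refine Finset.sum_congr (by ext; simp) fun k hk => ?_
    simp only [F, if_pos (Finset.mem_filter.1 hk).2]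
  have e1 : ∀ e, ∑ k, F k ((if C.s e = j then Pi.single (M := V) (C.t e) (C.ct e) else 0) k) =
      if j ∈ S then C.B e (C.rt e (a _)) (C.rs e (Pi.single (M := V) j (C.o j) (C.s e))) else 0 := by
    intro e
    by_cases hj : C.s e = j
    · subst hj
      rw [if_pos rfl, sum_single F, Pi.single_eq_same]
      have hb : C.T _ (a _) (C.o _) (C.ct e) = C.B e (C.rt e (a _)) (C.rs e (C.o _)) := by
        rw [h.T23, h.T12, h.pt, h.Bs, ← h.oc, h.Bs]
      by_cases hP : C.P e
      · have z : C.B e (C.rt e (a _)) (C.rs e (C.o _)) = 0 := by rw [h.Bs]; exact h.tyP e hP _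
        simp only [F]
        split_ifs <;> simp [hb, z]
      · by_cases h2 : C.s e ∈ S
        · simp only [F, if_pos h2, if_pos ((hS e hP).1 h2), hb]
        · simp only [F, if_neg h2, if_neg (mt (hS e hP).2 h2), LinearMap.zero_apply]
    · rw [if_neg hj, Pi.single_eq_of_ne hj]; simp
  have e2 : ∀ e, ∑ k, F k ((if C.t e = j then Pi.single (M := V) (C.s e) (C.cs e) else 0) k) =
      if j ∈ S then C.B e (C.rs e (a _)) (C.rt e (Pi.single (M := V) j (C.o j) (C.t e))) else 0 := by
    intro e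
    by_cases hj : C.t e = j
    · subst hj
      rw [if_pos rfl, sum_single F, Pi.single_eq_same]
      have hb : C.T _ (a _) (C.o _) (C.cs e) = C.B e (C.rs e (a _)) (C.rt e (C.o _)) := by
        rw [h.T23, h.T12, h.ps, h.Bs, h.oc, h.Bs]
      by_cases hP : C.P e
      · have z : C.B e (C.rs e (a _)) (C.rt e (C.o _)) = 0 := by
          rw [h.Bs, ← h.oc]; exact h.tyP e hP _
        simp only [F]
        split_ifs <;> simp [hb, z]
      · by_cases h2 : C.t e ∈ S
        · simp only [F, if_pos h2, if_pos ((hS e hP).2 h2), hb]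
        · simp only [F, if_neg h2, if_neg (mt (hS e hP).1 h2), LinearMap.zero_apply]
    · rw [if_neg hj, Pi.single_eq_of_ne hj]; simp
  rw [h1]
  simp only [Em, Pi.add_apply, Finset.sum_apply, map_add, map_sum, Finset.sum_add_distrib]
  rw [sum_single F, Finset.sum_comm, Finset.sum_comm (s := (Finset.univ : Finset K))]
  simp only [e1, e2]
  by_cases hj : j ∈ S
  · have h3 := ha (Pi.single j (C.o j))
    rw [sum_single (fun k => C.T k (a k) (C.n k)), Finset.sum_add_distrib, h.T23] at h3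
    simp only [F, if_pos hj]
    exact h3
  · simp [F, hj]

/-- **Sections 5b, 5c, duality and rational bases of section 6.** -/
theorem count (h : C.Good) (hg : ∀ e, C.Gys (C.g1 e)) {Sg : Type*} [Fintype Sg] (π : K → Sg)
    (hπ : ∀ e, ¬ C.P e → π (C.s e) = π (C.t e)) (Λ : ∀ k, AddSubgroup (V k))
    (hΛ : ∀ k, C.D k = Submodule.span ℝ (Λ k : Set (V k))) (κ : Ed → ℝ)
    (hκs : ∀ e, ∀ x ∈ Λ (C.s e), ∃ q : ℚ, C.B e (C.rs e x) (C.rs e (C.o _)) = q * κ e)
    (hκt : ∀ e, ∀ x ∈ Λ (C.t e), ∃ q : ℚ, C.B e (C.rt e x) (C.rs e (C.o _)) = q * κ e)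
    {R : Type*} [AddCommGroup R] [Module ℝ R] [FiniteDimensional ℝ R] (a : R →ₗ[ℝ] ∀ k, V k)
    (hD : ∀ r k, a r k ∈ C.D k) (ha : ∀ r, C.Gys (a r)) (u : Sg → ℕ)
    (hu : ∀ σ, (∀ r k, π k = σ → ∀ x ∈ C.D k, C.T k (a r k) (C.o k) x = 0) ∨
      C.Cls Λ {k | π k = σ} (u σ)) :
    finrank ℝ R ≤ ∑ σ, u σ + finrank ℝ (C.Z.comap a) := by
  classical
  have h1 : ∀ σ, ∃ M : Submodule ℝ R, finrank ℝ R ≤ u σ + finrank ℝ M ∧ ∀ r ∈ M,
      ∀ x : ∀ k, V k, (∀ k, x k ∈ C.D k) → (∀ k, π k ≠ σ → x k = 0) →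
        (∀ e, C.be (C.g1 e) x = 0) → C.be (a r) x = 0 := by
    intro σ
    rcases hu σ with h0 | h0
    · refine ⟨⊤, by simp, fun r _ x hx hx0 _ => ?_⟩
      rw [be_apply]
      refine Finset.sum_eq_zero fun k _ => ?_
      by_cases hk : π k = σ
      · exact h0 r k hk _ (hx k)
      · rw [hx0 k hk, map_zero]
    let Λ' : AddSubgroup (∀ k, V k) :=
      { carrier := {x | (∀ k, x k ∈ Λ k) ∧ ∀ k, π k ≠ σ → x k = 0}
        add_mem' := fun {x y} hx hy => ⟨fun k => add_mem (hx.1 k) (hy.1 k), fun k hk => by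
          rw [Pi.add_apply, hx.2 k hk, hy.2 k hk, add_zero]⟩
        zero_mem' := ⟨fun k => zero_mem _, fun _ _ => rfl⟩
        neg_mem' := fun {x} hx => ⟨fun k => neg_mem (hx.1 k), fun k hk => by
          rw [Pi.neg_apply, hx.2 k hk, neg_zero]⟩ }
    obtain ⟨M, hM, hM'⟩ := codim_le {y | y ∈ Λ' ∧ ∀ e, C.be (C.g1 e) y = 0} (C.be.comp a) (u σ)
      fun s x hx hind => h0 s x (fun j => (hx j).1.1) (fun j => (hx j).1.2)
        (fun j e _ => sub_eq_zero.1 ((be_g1 h e _).symm.trans ((hx j).2 e))) fun μ ⟨m, hm⟩ => by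
          refine hind μ fun r => ?_
          show C.be (a r) _ = 0
          let S := Finset.univ.filter fun k => π k = σ
          have h2 : ∑ k ∈ S, C.T k (a r k) (C.o k) ((∑ j, μ j • x j - ∑ i, m i • C.Em i) k) = 0 :=
            Finset.sum_eq_zero fun k hk => hm k (Finset.mem_filter.1 hk).2 _ (hD r k)
          have h3 : ∑ k ∈ S, C.T k (a r k) (C.o k) ((∑ i, m i • C.Em i) k) = 0 := by
            simp only [Finset.sum_apply, Pi.smul_apply, map_sum, map_smul, smul_eq_mul]
            rw [Finset.sum_comm]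
            refine Finset.sum_eq_zero fun i _ => ?_
            rw [← Finset.mul_sum, be_Em h (ha r) S (fun e he => by simp [S, hπ e he]) i, mul_zero]
          simp only [Pi.sub_apply, map_sub, Finset.sum_sub_distrib, h3, sub_zero] at h2
          rw [be_apply, ← h2]
          refine (Finset.sum_subset (Finset.subset_univ _) fun k _ hk => ?_).symm
          have hk' : π k ≠ σ := by simpa [S] using hk
          rw [Finset.sum_apply, Finset.sum_eq_zero fun j _ => by
            rw [Pi.smul_apply, (hx j).1.2 k hk', smul_zero], map_zero]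
    refine ⟨M, hM, fun r hr x hx hx0 hx1 => hM' r hr x
      (mem_span_rat Λ' (fun e => C.be (C.g1 e)) κ (fun e y hy => ?_) ?_ hx1)⟩
    · obtain ⟨q1, hq1⟩ := hκs e _ (hy.1 _)
      obtain ⟨q2, hq2⟩ := hκt e _ (hy.1 _)
      exact ⟨q1 - q2, by rw [be_g1 h, hq1, hq2]; push_cast; ring⟩
    · rw [← Finset.univ_sum_single x]
      refine Submodule.sum_mem _ fun k _ => ?_
      by_cases hk : π k = σ
      · have h2 := hx k
        rw [hΛ] at h2
        have h3 := Submodule.mem_map_of_mem (f := LinearMap.single ℝ V k) h2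
        rw [Submodule.map_span] at h3
        refine Submodule.span_mono ?_ h3
        rintro _ ⟨y, hy, rfl⟩
        refine ⟨fun k' => ?_, fun k' hk' => ?_⟩
        · by_cases h4 : k' = k
          · subst h4; simpa using hy
          · simp [Pi.single_eq_of_ne h4]
        · have h4 : k' ≠ k := fun h5 => hk' (h5 ▸ hk)
          simp [Pi.single_eq_of_ne h4]
      · rw [hx0 k hk, Pi.single_zero]; exact zero_mem _
  choose M hM hM' using h1
  refine (codim_iInf Finset.univ M u fun σ _ => hM σ).trans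
    (Nat.add_le_add_left (Submodule.finrank_mono fun r hr => ?_) _)
  have hr' : ∀ σ, r ∈ M σ := fun σ => by
    simp only [Submodule.mem_iInf] at hr
    exact hr σ (Finset.mem_univ σ)
  let D' : Submodule ℝ (∀ k, V k) := Submodule.pi Set.univ C.D
  have h2 : (C.be (a r)).comp D'.subtype ∈
      Submodule.span ℝ (Set.range fun e => (C.be (C.g1 e)).comp D'.subtype) := by
    refine mem_span_of_iInf_ker_le_ker fun x hx => ?_
    simp only [Submodule.mem_iInf, LinearMap.mem_ker, LinearMap.comp_apply,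
      Submodule.subtype_apply] at hx ⊢
    have h3 : (x : ∀ k, V k) = ∑ σ, fun k => if π k = σ then x.1 k else 0 := by
      funext k
      simp [Finset.sum_apply]
    rw [h3, map_sum]
    refine Finset.sum_eq_zero fun σ _ => hM' σ r (hr' σ) _ (fun k => ?_)
      (fun k hk => if_neg hk) fun e => ?_
    · by_cases hk : π k = σ
      · simp only [if_pos hk]; exact x.2 k trivial
      · simp only [if_neg hk]; exact zero_mem _
    · by_cases hP : C.P e
      · rw [be_apply]
        exact Finset.sum_eq_zero fun k _ => g1_vert h hP k _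
      · have h4 := hx e
        rw [be_g1 h] at h4 ⊢
        by_cases hk : π (C.s e) = σ
        · simp only [if_pos hk, if_pos ((hπ e hP).symm.trans hk)]; exact h4
        · simp only [if_neg hk, if_neg (fun h5 => hk ((hπ e hP).trans h5)), map_zero,
            LinearMap.zero_apply, sub_self]
  obtain ⟨t, ht⟩ := (Submodule.mem_span_range_iff_exists_fun ℝ).1 h2
  have h3 : C.Vert (a r - C.gam t) := by
    intro k x hx
    have hm : Pi.single (M := V) k x ∈ D' := fun k' _ => by
      by_cases h4 : k' = k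
      · subst h4; simpa using hx
      · simp [Pi.single_eq_of_ne h4]
    have h4 := LinearMap.congr_fun ht ⟨_, hm⟩
    have h5 : C.be (a r - C.gam t) (Pi.single k x) = 0 := by
      simp only [LinearMap.sum_apply, LinearMap.smul_apply, LinearMap.comp_apply,
        Submodule.subtype_apply] at h4
      rw [map_sub, LinearMap.sub_apply, ← h4, gam_apply, map_sum, LinearMap.sum_apply]
      simp only [map_smul, LinearMap.smul_apply, sub_self]
    rwa [be_apply, sum_single (fun j => C.T j ((a r - C.gam t) j) (C.o j))] at h5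
  obtain ⟨t', -, ht'⟩ := o1 h (a := a r - C.gam t) (fun k => sub_mem (hD r k) (gam_mem h _ k))
    ((ha r).sub (gys_gam fun e _ => hg e)) h3
  rw [Submodule.mem_comap, mem_Z]
  refine ⟨t + t', fun k => ?_⟩
  have := ht' k
  rwa [Pi.sub_apply, sub_sub, ← Pi.add_apply, ← map_add] at this

end Cfg

end P277Z.O1
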