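import Mathlib

/-!
# P277, abstract linear algebra: forms of Hodge index type, duality count
-/

namespace P277Z.O1

variable {V : Type*} [AddCommGroup V] [Module ℝ V]

/-- Hodge index property: `Q` is symmetric, `N` lies in its radical, `Q` is negative on the
orthogonal of `w`, strictly outside `N`. -/
structure HI (Q : V →ₗ[ℝ] V →ₗ[ℝ] ℝ) (w : V) (N : Submodule ℝ V) : Prop where
  symm : ∀ x y, Q x y = Q y x
  neg : ∀ x, Q x w = 0 → Q x x ≤ 0 ∧ (Q x x = 0 → x ∈ N)

/-- Orthogonal of an isotropic class which is not orthogonal to `w`. -/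
theorem HI.iso {Q : V →ₗ[ℝ] V →ₗ[ℝ] ℝ} {w : V} {N : Submodule ℝ V} (h : HI Q w N) {o : V}
    (hoo : Q o o = 0) (how : Q o w ≠ 0) {x : V} (hx : Q x o = 0) :
    Q x x ≤ 0 ∧ (Q x x = 0 → ∃ l : ℝ, x - l • o ∈ N) := by
  set l : ℝ := Q x w / Q o w with hl
  have h1 : Q (x - l • o) w = 0 := by
    simp only [map_sub, map_smul, LinearMap.sub_apply, LinearMap.smul_apply, smul_eq_mul]
    rw [hl]; field_simp; ring
  have hox : Q o x = 0 := by rw [h.symm]; exact hx
  have h2 : Q (x - l • o) (x - l • o) = Q x x := by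
    simp only [map_sub, map_smul, LinearMap.sub_apply, LinearMap.smul_apply, smul_eq_mul, hx, hox,
      hoo]
    ring
  obtain ⟨h3, h4⟩ := h.neg _ h1
  rw [h2] at h3 h4
  exact ⟨h3, fun h0 => ⟨l, h4 h0⟩⟩

/-- A symmetric form `q` on `P`, a linear map `g` from a finite-dimensional space, such that
`g t` orthogonal to the image of `g` forces `g t` to be orthogonal to `a`: then `a` has an
orthogonal projection on the image of `g`. -/
theorem exists_proj {P R : Type*} [AddCommGroup P] [Module ℝ P] [AddCommGroup R] [Module ℝ R]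
    [FiniteDimensional ℝ R] (q : P →ₗ[ℝ] P →ₗ[ℝ] ℝ) (hq : ∀ x y, q x y = q y x) (g : R →ₗ[ℝ] P)
    (a : P) (h : ∀ t, (∀ t', q (g t) (g t') = 0) → q a (g t) = 0) :
    ∃ t, ∀ t', q (a - g t) (g t') = 0 := by
  let Q : LinearMap.BilinForm ℝ R := q.compl₁₂ g g
  have hQ : Q.IsRefl := by
    intro x y hxy
    have : q (g x) (g y) = 0 := hxy
    show q (g y) (g x) = 0
    rw [hq]; exact this
  have hr : LinearMap.range (Q : R →ₗ[ℝ] Module.Dual ℝ R) =
      (LinearMap.ker (Q : R →ₗ[ℝ] Module.Dual ℝ R)).dualAnnihilator := by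
    apply Submodule.eq_of_le_of_finrank_eq
    · rintro _ ⟨x, rfl⟩
      rw [Submodule.mem_dualAnnihilator]
      intro y hy
      apply hQ
      rw [LinearMap.mem_ker] at hy
      rw [hy]; rfl
    · have h1 := LinearMap.finrank_range_add_finrank_ker (Q : R →ₗ[ℝ] Module.Dual ℝ R)
      have h2 := Subspace.finrank_add_finrank_dualAnnihilator_eq
        (LinearMap.ker (Q : R →ₗ[ℝ] Module.Dual ℝ R))
      exact Nat.add_left_cancel ((add_comm _ _).trans (h1.trans h2.symm))
  have hm : ((q a).comp g : Module.Dual ℝ R) ∈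
      LinearMap.range (Q : R →ₗ[ℝ] Module.Dual ℝ R) := by
    rw [hr, Submodule.mem_dualAnnihilator]
    intro y hy
    rw [LinearMap.mem_ker] at hy
    exact h y fun t' => by
      have : Q y t' = 0 := by rw [hy]; rfl
      exact this
  obtain ⟨t, ht⟩ := hm
  refine ⟨t, fun t' => ?_⟩
  have : Q t t' = q a (g t') := by rw [ht]; rfl
  have h2 : q (g t) (g t') = q a (g t') := this
  simp only [map_sub, LinearMap.sub_apply]
  rw [h2, sub_self]

end P277Z.O1
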