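import Vale.Agent.P277Z.O1.HI

/-!
# P277, LEMMA O1 (notes/P277_proof.md 5b; HR LEMMA 4a of notes/P277_proof_91.md), abstract form

`K` = components `E_k` (threefolds), `Ed` = double surfaces `e` in `E_(s e) ∩ E_(t e)`.
`V k` = classes (or closed forms) on `E_k`, `T k x y z = ∫ x y z`, `N k` = exact ones, `D k` = divisor
classes, `U e`, `B e` the same for `e`; `rs`, `rt` restrictions, `cs e`, `ct e` the class of `e` in
`E_(s e)`, `E_(t e)`; `n k = E_k|E_k`; `A = - ∑ c_k E_k`, `o = p^* ω`, `A + τ o` Kaehler.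
-/

namespace P277Z.O1

open Finset

/-- The intersection data of a simple normal crossing divisor in a fourfold. -/
structure Cfg (K Ed : Type*) (V : K → Type*) (U : Ed → Type*) [∀ k, AddCommGroup (V k)]
    [∀ k, Module ℝ (V k)] [∀ e, AddCommGroup (U e)] [∀ e, Module ℝ (U e)] where
  s : Ed → K
  t : Ed → K
  T : ∀ k, V k →ₗ[ℝ] V k →ₗ[ℝ] V k →ₗ[ℝ] ℝ
  N : ∀ k, Submodule ℝ (V k)
  D : ∀ k, Submodule ℝ (V k)
  B : ∀ e, U e →ₗ[ℝ] U e →ₗ[ℝ] ℝ
  rs : ∀ e, V (s e) →ₗ[ℝ] U e
  rt : ∀ e, V (t e) →ₗ[ℝ] U e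
  cs : ∀ e, V (s e)
  ct : ∀ e, V (t e)
  n : ∀ k, V k
  A : ∀ k, V k
  o : ∀ k, V k
  c : K → ℝ
  τ : ℝ
  P : Ed → Prop

variable {K Ed : Type*} [Fintype K] [Fintype Ed] [DecidableEq K] {V : K → Type*} {U : Ed → Type*}
  [∀ k, AddCommGroup (V k)] [∀ k, Module ℝ (V k)] [∀ e, AddCommGroup (U e)] [∀ e, Module ℝ (U e)]

namespace Cfg

variable (C : Cfg K Ed V U)

/-- add `e` on `E_(s e)`, subtract it on `E_(t e)` -/
noncomputable def g1 (e : Ed) : ∀ k, V k := Pi.single (C.s e) (C.cs e) - Pi.single (C.t e) (C.ct e)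

/-- `γ(r) = ∑ r_e γ(e)` -/
noncomputable def gam : (Ed → ℝ) →ₗ[ℝ] ∀ k, V k := Fintype.linearCombination ℝ C.g1

/-- `(∑ i_* a_k) · i_{m*} y_m = 0`, summed over `m` -/
def Gys (a : ∀ k, V k) : Prop :=
  ∀ y : ∀ k, V k, ∑ k, C.T k (a k) (C.n k) (y k) +
    ∑ e, (C.B e (C.rt e (a (C.t e))) (C.rs e (y (C.s e))) +
      C.B e (C.rs e (a (C.s e))) (C.rt e (y (C.t e)))) = 0

/-- condition (ii): `a_k · x · p^*ω = 0` for all divisor classes `x` -/
def Vert (a : ∀ k, V k) : Prop := ∀ k, ∀ x ∈ C.D k, C.T k (a k) (C.o k) x = 0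

/-- The geometric facts used. -/
structure Good : Prop where
  T12 : ∀ k x y z, C.T k x y z = C.T k y x z
  T23 : ∀ k x y z, C.T k x y z = C.T k x z y
  Bs : ∀ e x y, C.B e x y = C.B e y x
  cpos : ∀ k, 0 < C.c k
  ps : ∀ e x y, C.T _ (C.cs e) x y = C.B e (C.rs e x) (C.rs e y)
  pt : ∀ e x y, C.T _ (C.ct e) x y = C.B e (C.rt e x) (C.rt e y)
  Ac : ∀ e u, C.B e (C.rs e (C.A _)) u = C.B e (C.rt e (C.A _)) u
  oc : ∀ e u, C.B e (C.rs e (C.o _)) u = C.B e (C.rt e (C.o _)) u
  NT : ∀ k, ∀ x ∈ C.N k, ∀ y z, C.T k x y z = 0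
  Ns : ∀ e, ∀ x ∈ C.N (C.s e), ∀ u, C.B e (C.rs e x) u = 0
  Nt : ∀ e, ∀ x ∈ C.N (C.t e), ∀ u, C.B e (C.rt e x) u = 0
  AD : ∀ k, C.A k ∈ C.D k
  sD : ∀ e, C.cs e ∈ C.D _
  tD : ∀ e, C.ct e ∈ C.D _
  nrm : ∀ k, C.c k • C.n k + C.A k + (∑ e, (Pi.single (C.s e) (C.c (C.t e) • C.cs e) +
    Pi.single (C.t e) (C.c (C.s e) • C.ct e)) : ∀ k, V k) k ∈ C.N k
  hi3 : ∀ k x, C.T k (C.A k + C.τ • C.o k) x (C.A k + C.τ • C.o k) = 0 →
    C.T k (C.A k + C.τ • C.o k) x x ≤ 0 ∧ (C.T k (C.A k + C.τ • C.o k) x x = 0 → x ∈ C.N k)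
  hi2 : ∀ e u, C.B e u (C.rs e (C.A _ + C.τ • C.o _)) = 0 → C.B e u u ≤ 0
  tyK : ∀ k, C.o k ∈ C.N k ∨
    (∀ y, C.T k (C.o k) (C.o k) y = 0) ∧ 0 < C.T k (C.o k) (C.A k) (C.A k)
  tyP : ∀ e, C.P e → ∀ u, C.B e (C.rs e (C.o _)) u = 0
  tyH : ∀ e, ¬ C.P e → 0 < C.B e (C.rs e (C.o _)) (C.rs e (C.A _))
  gys : ∀ e, C.P e → C.Gys (C.g1 e)

variable {C}

theorem sum_single (F : ∀ k, V k →ₗ[ℝ] ℝ) (j : K) (v : V j) :
    ∑ k, F k (Pi.single (M := V) j v k) = F j v := by
  rw [Finset.sum_eq_single j]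
  · simp
  · intro k _ hk
    rw [Pi.single_eq_of_ne hk, map_zero]
  · simp

/-- the equation (*) -/
theorem star (h : C.Good) {b : ∀ k, V k} (hb : C.Gys fun k => C.c k • b k) (y : ∀ k, V k) :
    ∑ k, C.T k (C.A k) (b k) (y k) =
      ∑ e, (C.c (C.s e) * C.B e (C.rs e (b _) - C.rt e (b _)) (C.rt e (y _)) -
        C.c (C.t e) * C.B e (C.rs e (b _) - C.rt e (b _)) (C.rs e (y _))) := by
  have h1 := hb y
  set Z : ∀ k, V k := ∑ e, (Pi.single (C.s e) (C.c (C.t e) • C.cs e) +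
    Pi.single (C.t e) (C.c (C.s e) • C.ct e)) with hZ
  have h2 : ∀ k, C.T k (C.c k • b k) (C.n k) (y k) =
      - C.T k (C.A k) (b k) (y k) - C.T k (Z k) (b k) (y k) := by
    intro k
    have := h.NT k _ (h.nrm k) (b k) (y k)
    rw [← hZ] at this
    simp only [map_add, map_smul, LinearMap.add_apply, LinearMap.smul_apply, smul_eq_mul] at this ⊢
    rw [h.T12 k (b k) (C.n k)]
    linarith
  have h3 : ∑ k, C.T k (Z k) (b k) (y k) =
      ∑ e, (C.c (C.t e) * C.B e (C.rs e (b _)) (C.rs e (y _)) +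
        C.c (C.s e) * C.B e (C.rt e (b _)) (C.rt e (y _))) := by
    let F : ∀ k, V k →ₗ[ℝ] ℝ := fun k => ((C.T k).flip (b k)).flip (y k)
    have hF : ∀ k x, C.T k x (b k) (y k) = F k x := fun k x => rfl
    rw [show ∑ k, C.T k (Z k) (b k) (y k) = ∑ k, F k (Z k) from rfl]
    simp only [hZ, Finset.sum_apply, Pi.add_apply, map_sum, map_add]
    rw [Finset.sum_comm]
    refine Finset.sum_congr rfl fun e _ => ?_
    rw [Finset.sum_add_distrib, sum_single F, sum_single F, map_smul, map_smul, ← hF, ← hF, h.ps,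
      h.pt, smul_eq_mul, smul_eq_mul]
  simp only [h2, Finset.sum_sub_distrib, Finset.sum_neg_distrib, h3] at h1
  simp only [map_smul, map_sub, LinearMap.smul_apply, LinearMap.sub_apply, smul_eq_mul, mul_sub,
    Finset.sum_sub_distrib, Finset.sum_add_distrib] at h1 ⊢
  linarith

theorem oo (h : C.Good) (k : K) (y : V k) : C.T k (C.o k) (C.o k) y = 0 := by
  rcases h.tyK k with h1 | h1
  · exact h.NT k _ h1 _ _
  · exact h1.1 y

/-- the core: orthogonal to `γ(R_pt)` implies null -/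
theorem key (h : C.Good) {b : ∀ k, V k} (hD : ∀ k, b k ∈ C.D k)
    (hb : C.Gys fun k => C.c k • b k) (hv : C.Vert b)
    (hq : ∀ e, C.P e → C.B e (C.rs e (b _) - C.rt e (b _)) (C.rs e (C.A _)) = 0) (k : K) :
    b k ∈ C.N k := by
  set δ : ∀ e, U e := fun e => C.rs e (b _) - C.rt e (b _) with hδ
  have hst := star h hb
  have hδo : ∀ e, C.B e (δ e) (C.rs e (C.o _)) = 0 := by
    intro e
    have e1 := hv _ _ (h.sD e)
    have e2 := hv _ _ (h.tD e)
    rw [h.T23, h.T12, h.ps] at e1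
    rw [h.T23, h.T12, h.pt, h.Bs, ← h.oc, h.Bs] at e2
    simp only [hδ, map_sub, LinearMap.sub_apply, e1, e2, sub_self]
  have s1 : ∀ e, C.B e (δ e) (δ e) ≤ 0 := by
    intro e
    by_cases hP : C.P e
    · apply h.hi2
      rw [map_add, map_smul, map_add, map_smul, hδo, smul_zero, add_zero]
      exact hq e hP
    · have hH : HI (C.B e) (C.rs e (C.A _ + C.τ • C.o _)) ⊤ :=
        ⟨h.Bs e, fun x hx => ⟨h.hi2 e x hx, fun _ => trivial⟩⟩
      have hoo : C.B e (C.rs e (C.o _)) (C.rs e (C.o _)) = 0 := by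
        rw [← h.ps, h.T12, h.T23]; exact oo h _ _
      refine (hH.iso hoo ?_ (hδo e)).1
      rw [map_add, map_smul, map_add, map_smul, hoo, smul_zero, add_zero]
      exact (h.tyH e hP).ne'
  have s2 : ∀ k, C.T k (C.A k) (b k) (b k) ≤ 0 ∧
      (C.T k (C.A k) (b k) (b k) = 0 → ∃ l : ℝ, b k - l • C.o k ∈ C.N k) := by
    intro k
    have hw : C.T k (C.A k + C.τ • C.o k) (b k) (b k) = C.T k (C.A k) (b k) (b k) := by
      have := hv k _ (hD k)
      rw [h.T12] at this
      simp only [map_add, map_smul, LinearMap.add_apply, LinearMap.smul_apply, this, smul_zero,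
        add_zero]
    rcases h.tyK k with h1 | h1
    · have h2 : C.T k (C.A k) (b k) (C.A k) = 0 := by
        have h3 := hst (Pi.single k (C.A k))
        rw [sum_single (fun j => C.T j (C.A j) (b j))] at h3
        rw [h3]
        refine Finset.sum_eq_zero fun e _ => ?_
        have a1 : C.B e (δ e) (C.rs e (Pi.single (M := V) k (C.A k) (C.s e))) = 0 := by
          by_cases hk : C.s e = k
          · subst hk
            rw [Pi.single_eq_same]
            refine hq e ?_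
            by_contra hP
            exact (h.tyH e hP).ne' (h.Ns e _ h1 _)
          · rw [Pi.single_eq_of_ne hk, map_zero, map_zero]
        have a2 : C.B e (δ e) (C.rt e (Pi.single (M := V) k (C.A k) (C.t e))) = 0 := by
          by_cases hk : C.t e = k
          · subst hk
            rw [Pi.single_eq_same, h.Bs, ← h.Ac, h.Bs]
            refine hq e ?_
            by_contra hP
            refine (h.tyH e hP).ne' ?_
            rw [h.oc]
            exact h.Nt e _ h1 _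
          · rw [Pi.single_eq_of_ne hk, map_zero, map_zero]
        simp only [hδ] at a1 a2
        rw [a1, a2]; ring
      have h4 : C.T k (C.A k + C.τ • C.o k) (b k) (C.A k + C.τ • C.o k) = 0 := by
        have z1 : C.T k (C.A k) (b k) (C.o k) = 0 := by
          rw [h.T23, h.T12]; exact h.NT k _ h1 _ _
        simp only [map_add, map_smul, LinearMap.add_apply, LinearMap.smul_apply, h2, z1,
          h.NT k _ h1, smul_zero, add_zero]
      obtain ⟨h5, h6⟩ := h.hi3 k _ h4
      rw [hw] at h5 h6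
      exact ⟨h5, fun h0 => ⟨0, by simpa using h6 h0⟩⟩
    · have hH : HI (C.T k (C.A k + C.τ • C.o k)) (C.A k + C.τ • C.o k) (C.N k) :=
        ⟨fun x y => h.T23 k _ x y, h.hi3 k⟩
      have z0 : ∀ y, C.T k y (C.o k) (C.o k) = 0 := fun y => by
        rw [h.T12, h.T23]; exact h1.1 y
      have z1 : C.T k (C.A k + C.τ • C.o k) (C.o k) (C.A k + C.τ • C.o k) ≠ 0 := by
        simp only [map_add, map_smul, LinearMap.add_apply, LinearMap.smul_apply, z0, h1.1,
          smul_zero, add_zero]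
        rw [h.T12]; exact h1.2.ne'
      have z2 : C.T k (C.A k + C.τ • C.o k) (b k) (C.o k) = 0 := by
        have y1 : C.T k (C.A k) (b k) (C.o k) = 0 := by
          rw [h.T12, h.T23]; exact hv k _ (h.AD k)
        have y2 : C.T k (C.o k) (b k) (C.o k) = 0 := by rw [h.T23]; exact h1.1 _
        simp only [map_add, map_smul, LinearMap.add_apply, LinearMap.smul_apply, y1, y2, smul_zero,
          add_zero]
      have := hH.iso (z0 _) z1 z2
      rwa [hw] at this
  have s3 : ∀ k, C.T k (C.A k) (b k) (b k) = 0 := by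
    have h1 := hst fun k => C.c k • b k
    have h2 : ∑ k, C.c k * C.T k (C.A k) (b k) (b k) =
        ∑ e, - (C.c (C.s e) * C.c (C.t e) * C.B e (δ e) (δ e)) := by
      simp only [map_smul, smul_eq_mul] at h1
      rw [h1]
      refine Finset.sum_congr rfl fun e _ => ?_
      have : C.B e (δ e) (δ e) = C.B e (δ e) (C.rs e (b _)) - C.B e (δ e) (C.rt e (b _)) := by
        rw [← map_sub]
      rw [this]
      simp only [hδ]
      ring
    have h3 : 0 ≤ ∑ k, C.c k * C.T k (C.A k) (b k) (b k) := by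
      rw [h2]
      refine Finset.sum_nonneg fun e _ => ?_
      have := mul_pos (h.cpos (C.s e)) (h.cpos (C.t e))
      nlinarith [s1 e]
    have h4 : ∀ k ∈ (Finset.univ : Finset K), C.c k * C.T k (C.A k) (b k) (b k) ≤ 0 :=
      fun k _ => by nlinarith [h.cpos k, (s2 k).1]
    have h5 := (Finset.sum_eq_zero_iff_of_nonpos h4).1 (le_antisymm (Finset.sum_nonpos h4) h3)
    intro k
    exact (mul_eq_zero.1 (h5 k (Finset.mem_univ k))).resolve_left (h.cpos k).ne'
  choose l hl using fun k => (s2 k).2 (s3 k)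
  have hh : ∀ k, 0 ≤ C.T k (C.o k) (C.A k) (C.A k) := by
    intro k
    rcases h.tyK k with h1 | h1
    · exact (h.NT k _ h1 _ _).ge
    · exact h1.2.le
  have hn : ∀ e, 0 ≤ C.B e (C.rs e (C.o _)) (C.rs e (C.A _)) := by
    intro e
    by_cases hP : C.P e
    · exact (h.tyP e hP _).ge
    · exact (h.tyH e hP).le
  have b1 : ∀ k, C.T k (C.A k) (b k) (C.A k) = l k * C.T k (C.o k) (C.A k) (C.A k) := by
    intro k
    have := h.NT k _ (hl k) (C.A k) (C.A k)
    simp only [map_sub, map_smul, LinearMap.sub_apply, LinearMap.smul_apply, smul_eq_mul] at this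
    rw [h.T12]; linarith
  have b2 : ∀ e, C.B e (δ e) (C.rs e (C.A _)) =
      (l (C.s e) - l (C.t e)) * C.B e (C.rs e (C.o _)) (C.rs e (C.A _)) := by
    intro e
    have y1 := h.Ns e _ (hl _) (C.rs e (C.A _))
    have y2 := h.Nt e _ (hl _) (C.rs e (C.A _))
    simp only [map_sub, map_smul, LinearMap.sub_apply, LinearMap.smul_apply, smul_eq_mul] at y1 y2
    rw [← h.oc] at y2
    simp only [hδ, map_sub, LinearMap.sub_apply]
    linarith
  have s4 : ∑ k, C.c k * (l k ^ 2 * C.T k (C.o k) (C.A k) (C.A k)) =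
      ∑ e, - (C.c (C.s e) * C.c (C.t e) * ((l (C.s e) - l (C.t e)) ^ 2 *
        C.B e (C.rs e (C.o _)) (C.rs e (C.A _)))) := by
    have h1 := hst fun k => (C.c k * l k) • C.A k
    simp only [map_smul, smul_eq_mul, b1] at h1
    calc _ = ∑ k, C.c k * l k * (l k * C.T k (C.o k) (C.A k) (C.A k)) :=
          Finset.sum_congr rfl fun k _ => by ring
      _ = _ := h1
      _ = _ := Finset.sum_congr rfl fun e _ => by
          have y1 := b2 e
          have y2 : C.B e (δ e) (C.rt e (C.A _)) = C.B e (δ e) (C.rs e (C.A _)) := by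
            rw [h.Bs, ← h.Ac, h.Bs]
          simp only [hδ] at y1 y2
          rw [y2, y1]; ring
  have h4 : ∀ k ∈ (Finset.univ : Finset K),
      0 ≤ C.c k * (l k ^ 2 * C.T k (C.o k) (C.A k) (C.A k)) :=
    fun k _ => mul_nonneg (h.cpos k).le (mul_nonneg (sq_nonneg _) (hh k))
  have h3 : ∑ k, C.c k * (l k ^ 2 * C.T k (C.o k) (C.A k) (C.A k)) ≤ 0 := by
    rw [s4]
    refine Finset.sum_nonpos fun e _ => ?_
    exact neg_nonpos.2 (mul_nonneg (mul_pos (h.cpos _) (h.cpos _)).le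
      (mul_nonneg (sq_nonneg _) (hn e)))
  have h5 := (Finset.sum_eq_zero_iff_of_nonneg h4).1 (le_antisymm h3 (Finset.sum_nonneg h4)) k
    (Finset.mem_univ k)
  have h6 : l k • C.o k ∈ C.N k := by
    rcases h.tyK k with h1 | h1
    · exact Submodule.smul_mem _ _ h1
    · have := (mul_eq_zero.1 ((mul_eq_zero.1 h5).resolve_left (h.cpos k).ne')).resolve_right
        h1.2.ne'
      rw [pow_eq_zero_iff two_ne_zero] at this
      rw [this, zero_smul]; exact zero_mem _
  simpa using add_mem (hl k) h6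

theorem Gys.sub {a a' : ∀ k, V k} (h : C.Gys a) (h' : C.Gys a') : C.Gys (a - a') := by
  intro y
  have h1 := h y
  have h2 := h' y
  simp only [Pi.sub_apply, map_sub, LinearMap.sub_apply, Finset.sum_sub_distrib,
    Finset.sum_add_distrib] at h1 h2 ⊢
  linarith

theorem gam_apply (r : Ed → ℝ) : C.gam r = ∑ e, r e • C.g1 e := rfl

theorem gys_gam {r : Ed → ℝ} (hr : ∀ e, r e ≠ 0 → C.Gys (C.g1 e)) : C.Gys (C.gam r) := by
  intro y
  have h1 : ∀ e, r e * (∑ k, C.T k (C.g1 e k) (C.n k) (y k) +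
      ∑ e', (C.B e' (C.rt e' (C.g1 e (C.t e'))) (C.rs e' (y (C.s e'))) +
        C.B e' (C.rs e' (C.g1 e (C.s e'))) (C.rt e' (y (C.t e'))))) = 0 := by
    intro e
    by_cases h0 : r e = 0
    · rw [h0, zero_mul]
    · rw [hr e h0 y, mul_zero]
  have h2 := Finset.sum_eq_zero (s := Finset.univ) fun e _ => h1 e
  simp only [gam_apply, Finset.sum_apply, Pi.smul_apply, map_sum, map_smul, LinearMap.sum_apply,
    LinearMap.smul_apply, smul_eq_mul, mul_add, Finset.mul_sum, Finset.sum_add_distrib] at h2 ⊢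
  rw [Finset.sum_comm, Finset.sum_comm (f := fun e' e => r e * C.B e' (C.rt e' (C.g1 e (C.t e'))) _),
    Finset.sum_comm (f := fun e' e => r e * C.B e' (C.rs e' (C.g1 e (C.s e'))) _)]
  exact h2

theorem g1_mem (h : C.Good) (e : Ed) (k : K) : C.g1 e k ∈ C.D k := by
  refine sub_mem ?_ ?_
  · by_cases hk : C.s e = k
    · subst hk; rw [Pi.single_eq_same]; exact h.sD e
    · rw [Pi.single_eq_of_ne (Ne.symm hk)]; exact zero_mem _
  · by_cases hk : C.t e = k
    · subst hk; rw [Pi.single_eq_same]; exact h.tD e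
    · rw [Pi.single_eq_of_ne (Ne.symm hk)]; exact zero_mem _

theorem gam_mem (h : C.Good) (r : Ed → ℝ) (k : K) : C.gam r k ∈ C.D k := by
  rw [gam_apply, Finset.sum_apply]
  exact Submodule.sum_mem _ fun e _ => Submodule.smul_mem _ _ (g1_mem h e k)

theorem g1_vert (h : C.Good) {e : Ed} (he : C.P e) (k : K) (x : V k) :
    C.T k (C.g1 e k) (C.o k) x = 0 := by
  have a1 : C.T k (Pi.single (M := V) (C.s e) (C.cs e) k) (C.o k) x = 0 := by
    by_cases hk : C.s e = k
    · subst hk; rw [Pi.single_eq_same, h.ps]; exact h.tyP e he _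
    · rw [Pi.single_eq_of_ne (Ne.symm hk)]; simp
  have a2 : C.T k (Pi.single (M := V) (C.t e) (C.ct e) k) (C.o k) x = 0 := by
    by_cases hk : C.t e = k
    · subst hk; rw [Pi.single_eq_same, h.pt, ← h.oc]; exact h.tyP e he _
    · rw [Pi.single_eq_of_ne (Ne.symm hk)]; simp
  simp only [g1, Pi.sub_apply, map_sub, LinearMap.sub_apply, a1, a2, sub_self]

theorem gam_vert (h : C.Good) {r : Ed → ℝ} (hr : ∀ e, ¬ C.P e → r e = 0) (k : K) (x : V k) :
    C.T k (C.gam r k) (C.o k) x = 0 := by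
  simp only [gam_apply, Finset.sum_apply, Pi.smul_apply, map_sum, map_smul, LinearMap.sum_apply,
    LinearMap.smul_apply, smul_eq_mul]
  refine Finset.sum_eq_zero fun e _ => ?_
  by_cases he : C.P e
  · rw [g1_vert h he, mul_zero]
  · rw [hr e he, zero_mul]

variable (C) in
/-- `q(a,a') = ∑ c_k⁻¹ A a_k a'_k` -/
noncomputable def q : (∀ k, V k) →ₗ[ℝ] (∀ k, V k) →ₗ[ℝ] ℝ :=
  ∑ k, (C.c k)⁻¹ • (C.T k (C.A k)).compl₁₂ (LinearMap.proj k) (LinearMap.proj k)

theorem q_apply (a a' : ∀ k, V k) : C.q a a' = ∑ k, (C.c k)⁻¹ * C.T k (C.A k) (a k) (a' k) := by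
  simp [q, LinearMap.sum_apply]

theorem key' (h : C.Good) {a : ∀ k, V k} (hD : ∀ k, a k ∈ C.D k) (ha : C.Gys a) (hv : C.Vert a)
    (hq : ∀ e, C.P e → C.q a (C.g1 e) = 0) (k : K) : a k ∈ C.N k := by
  have hb : (fun k => C.c k • (C.c k)⁻¹ • a k) = a := funext fun k => by
    rw [smul_smul, mul_inv_cancel₀ (h.cpos k).ne', one_smul]
  have := key h (b := fun k => (C.c k)⁻¹ • a k) (fun k => Submodule.smul_mem _ _ (hD k))
    (by rw [hb]; exact ha)
    (fun k x hx => by
      simp only [map_smul, LinearMap.smul_apply, hv k x hx, smul_zero])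
    (fun e he => by
      have h1 := hq e he
      rw [q_apply] at h1
      let F : ∀ k, V k →ₗ[ℝ] ℝ := fun k => (C.c k)⁻¹ • C.T k (C.A k) (a k)
      rw [show ∑ k, (C.c k)⁻¹ * C.T k (C.A k) (a k) (C.g1 e k) = ∑ k, F k (C.g1 e k) from rfl] at h1
      simp only [g1, Pi.sub_apply, map_sub, Finset.sum_sub_distrib] at h1
      rw [sum_single F, sum_single F] at h1
      simp only [F, LinearMap.smul_apply, smul_eq_mul] at h1
      rw [h.T23, h.T12, h.ps, h.T23 (C.t e), h.T12 (C.t e), h.pt, ← h.Ac, h.Bs,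
        h.Bs e _ (C.rt e _)] at h1
      simp only [map_sub, map_smul, LinearMap.sub_apply, LinearMap.smul_apply, smul_eq_mul]
      exact h1) k
  have h2 := Submodule.smul_mem _ (C.c k) this
  rwa [smul_smul, mul_inv_cancel₀ (h.cpos k).ne', one_smul] at h2

/-- **LEMMA O1.** A family of divisor classes `a_k` which satisfies the Gysin equations and is
killed by `p^*ω` is, up to exact classes, a combination of the `γ(e)`, `e` over a point. -/
theorem o1 (h : C.Good) {a : ∀ k, V k} (hD : ∀ k, a k ∈ C.D k) (ha : C.Gys a) (hv : C.Vert a) :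
    ∃ r : Ed → ℝ, (∀ e, ¬ C.P e → r e = 0) ∧ ∀ k, a k - C.gam r k ∈ C.N k := by
  classical
  let ext : ({e // C.P e} → ℝ) →ₗ[ℝ] Ed → ℝ :=
    { toFun := fun t e => if he : C.P e then t ⟨e, he⟩ else 0
      map_add' := fun t t' => funext fun e => by by_cases he : C.P e <;> simp [he]
      map_smul' := fun m t => funext fun e => by by_cases he : C.P e <;> simp [he] }
  have e0 : ∀ t e, ¬ C.P e → ext t e = 0 := fun t e he => dif_neg he
  have e1 : ∀ e (he : C.P e), C.gam (ext (Pi.single ⟨e, he⟩ 1)) = C.g1 e := by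
    intro e he
    rw [gam_apply, Finset.sum_eq_single e]
    · have : ext (Pi.single ⟨e, he⟩ 1) e = 1 := by
        show (if he' : C.P e then _ else _) = _
        rw [dif_pos he, Pi.single_eq_same]
      rw [this, one_smul]
    · intro e' _ hne
      have : ext (Pi.single ⟨e, he⟩ 1) e' = 0 := by
        show (if he' : C.P e' then _ else _) = _
        split_ifs with he'
        · exact Pi.single_eq_of_ne (fun h0 => hne (congrArg Subtype.val h0)) _
        · rfl
      rw [this, zero_smul]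
    · simp
  have eg : ∀ t, C.Gys (C.gam (ext t)) := fun t =>
    gys_gam fun e he => h.gys e (by_contra fun hP => he (e0 t e hP))
  have hqs : ∀ x y, C.q x y = C.q y x := fun x y => by
    rw [q_apply, q_apply]
    exact Finset.sum_congr rfl fun k _ => by rw [h.T23]
  obtain ⟨t, ht⟩ := exists_proj C.q hqs (C.gam.comp ext) a fun t ht => by
    have := key' h (a := C.gam (ext t)) (gam_mem h _) (eg t)
      (fun k x _ => gam_vert h (e0 t) k x) fun e he => by
        rw [← e1 e he]; exact ht _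
    rw [q_apply]
    refine Finset.sum_eq_zero fun k _ => ?_
    rw [h.T23, h.T12]
    exact mul_eq_zero_of_right _ (h.NT k _ (this k) _ _)
  refine ⟨ext t, e0 t, key' h (a := a - C.gam (ext t)) (fun k => sub_mem (hD k) (gam_mem h _ k))
    (ha.sub (eg t)) (fun k x hx => ?_) fun e he => ?_⟩
  · simp only [Pi.sub_apply, map_sub, LinearMap.sub_apply, hv k x hx, gam_vert h (e0 t), sub_self]
  · rw [← e1 e he]; exact ht _

end Cfg

end P277Z.O1
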